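import Mathlib.LinearAlgebra.Matrix.Rank
import Mathlib.Tactic

/-!
# P039: homology of a spherical map from Euler's formula (over a field `K`)

`E` = edges with ends `s e`, `t e : V` and sides `l e`, `r e : F`; no geometry is used, only:
the boundary of each face is a cycle, the graph and its dual are connected, `|V|+|F| = |E|+2`.

* `exists_potential`: every circulation `y` is `y e = x (l e) - x (r e)` for some `x : F → K`;
* `exists_coboundary`: every `τ : F → K` with sum zero is
  `τ f = ∑ e, u e * ([l e = f] - [r e = f])` for some `u : E → K` (needs only: dual connected).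
-/

namespace Vale.Agent.P039.H412

open Finset Matrix

variable {V E F : Type*} [Fintype V] [Fintype E] [Fintype F] [DecidableEq V] [DecidableEq F]
  {K : Type*} [Field K]

/-- the difference matrix of two maps `l r : E → F` -/
def dm (K : Type*) [Field K] (l r : E → F) : Matrix E F K :=
  fun e f => (if l e = f then 1 else 0) - (if r e = f then 1 else 0)

omit [Fintype E] in
theorem dm_mulVec (l r : E → F) (x : F → K) (e : E) :
    (dm K l r).mulVec x e = x (l e) - x (r e) := by
  simp [dm, Matrix.mulVec, dotProduct, sub_mul, Finset.sum_sub_distrib]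

omit [Fintype F] in
theorem dm_transpose_mulVec (l r : E → F) (y : E → K) (f : F) :
    (dm K l r)ᵀ.mulVec y f =
      ∑ e, y e * ((if l e = f then 1 else 0) - (if r e = f then 1 else 0)) := by
  simp only [dm, Matrix.mulVec, dotProduct, Matrix.transpose_apply]
  exact Finset.sum_congr rfl fun e _ => mul_comm _ _

theorem dm_rank (l r : E → F)
    (h : ∀ ψ : F → K, (∀ e, ψ (l e) = ψ (r e)) → ∀ a b, ψ a = ψ b) :
    Fintype.card F ≤ (dm K l r).rank + 1 := by
  classical
  rw [Matrix.rank]
  have h1 := LinearMap.finrank_range_add_finrank_ker (dm K l r).mulVecLin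
  rw [Module.finrank_fintype_fun_eq_card] at h1
  have h2 : Module.finrank K (LinearMap.ker (dm K l r).mulVecLin) ≤ 1 := by
    have hle : LinearMap.ker (dm K l r).mulVecLin ≤
        Submodule.span K {fun _ : F => (1 : K)} := by
      intro x hx
      rw [LinearMap.mem_ker] at hx
      have hc := h x (fun e => by
        have := congrFun hx e
        rw [Matrix.mulVecLin_apply, dm_mulVec] at this
        exact sub_eq_zero.1 this)
      rcases isEmpty_or_nonempty F with h0 | ⟨⟨f0⟩⟩
      · have : x = 0 := by
          funext v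
          exact h0.elim v
        rw [this]; exact Submodule.zero_mem _
      · rw [Submodule.mem_span_singleton]
        refine ⟨x f0, ?_⟩
        funext v
        simpa using hc f0 v
    exact (Submodule.finrank_mono hle).trans ((finrank_span_le_card _).trans (by simp))
  omega

/-- **`H_1 = 0`**: every circulation is the boundary of a 2-chain. -/
theorem exists_potential (s t : E → V) (l r : E → F)
    (hbd : ∀ (f : F) (v : V), ∑ e : E, ((if t e = v then 1 else 0) - (if s e = v then 1 else 0)) *
      ((if l e = f then 1 else 0) - (if r e = f then 1 else 0)) = (0 : K))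
    (hconn : ∀ φ : V → K, (∀ e, φ (t e) = φ (s e)) → ∀ a b, φ a = φ b)
    (hdual : ∀ ψ : F → K, (∀ e, ψ (l e) = ψ (r e)) → ∀ a b, ψ a = ψ b)
    (heuler : Fintype.card E + 2 ≤ Fintype.card V + Fintype.card F)
    (y : E → K)
    (hy : ∀ v, ∑ e : E, y e * ((if t e = v then 1 else 0) - (if s e = v then 1 else 0)) = 0) :
    ∃ x : F → K, ∀ e, y e = x (l e) - x (r e) := by
  classical
  have h0 : (dm K t s)ᵀ * dm K l r = 0 := by
    funext v f
    simp only [Matrix.mul_apply, Matrix.zero_apply, Matrix.transpose_apply, dm]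
    exact hbd f v
  have hle : LinearMap.range (dm K l r).mulVecLin ≤ LinearMap.ker (dm K t s)ᵀ.mulVecLin := by
    rw [LinearMap.range_le_ker_iff, ← Matrix.mulVecLin_mul, h0]
    ext1; simp
  have h1 := LinearMap.finrank_range_add_finrank_ker (dm K t s)ᵀ.mulVecLin
  rw [Module.finrank_fintype_fun_eq_card] at h1
  have h2 := dm_rank (K := K) t s hconn
  have h3 := dm_rank (K := K) l r hdual
  rw [← Matrix.rank_transpose, Matrix.rank] at h2
  rw [Matrix.rank] at h3
  have heq := Submodule.eq_of_le_of_finrank_le hle (by omega)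
  have hmem : y ∈ LinearMap.ker (dm K t s)ᵀ.mulVecLin := by
    rw [LinearMap.mem_ker]
    funext v
    rw [Matrix.mulVecLin_apply, dm_transpose_mulVec]
    exact hy v
  rw [← heq] at hmem
  obtain ⟨x, hx⟩ := hmem
  refine ⟨x, fun e => ?_⟩
  rw [← hx, Matrix.mulVecLin_apply, dm_mulVec]

omit [Fintype V] [DecidableEq V] in
/-- **Coboundary**: a function with sum zero on the faces is a coboundary. -/
theorem exists_coboundary (l r : E → F)
    (hdual : ∀ ψ : F → K, (∀ e, ψ (l e) = ψ (r e)) → ∀ a b, ψ a = ψ b)
    (τ : F → K) (hτ : ∑ f, τ f = 0) :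
    ∃ u : E → K, ∀ f, ∑ e : E, u e * ((if l e = f then 1 else 0) - (if r e = f then 1 else 0)) = τ f := by
  classical
  rcases isEmpty_or_nonempty F with h0 | ⟨⟨f0⟩⟩
  · exact ⟨0, fun f => h0.elim f⟩
  let S : (F → K) →ₗ[K] K := ∑ f, LinearMap.proj f
  have hS : ∀ x : F → K, S x = ∑ f, x f := fun x => by simp [S]
  have hle : LinearMap.range (dm K l r)ᵀ.mulVecLin ≤ LinearMap.ker S := by
    rintro _ ⟨y, rfl⟩
    rw [LinearMap.mem_ker, hS]
    simp only [Matrix.mulVecLin_apply, dm_transpose_mulVec]
    rw [Finset.sum_comm]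
    refine Finset.sum_eq_zero fun e _ => ?_
    rw [← Finset.mul_sum, Finset.sum_sub_distrib]
    simp
  have h1 := LinearMap.finrank_range_add_finrank_ker S
  rw [Module.finrank_fintype_fun_eq_card] at h1
  have hsurj : LinearMap.range S = ⊤ := by
    rw [LinearMap.range_eq_top]
    intro c
    refine ⟨Pi.single f0 c, ?_⟩
    rw [hS]
    simp
  rw [hsurj, finrank_top, Module.finrank_self] at h1
  have h3 := dm_rank (K := K) l r hdual
  rw [← Matrix.rank_transpose, Matrix.rank] at h3
  have heq := Submodule.eq_of_le_of_finrank_le hle (by omega)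
  have hmem : τ ∈ LinearMap.ker S := by
    rw [LinearMap.mem_ker, hS, hτ]
  rw [← heq] at hmem
  obtain ⟨u, hu⟩ := hmem
  refine ⟨u, fun f => ?_⟩
  rw [← hu, Matrix.mulVecLin_apply, dm_transpose_mulVec]

end Vale.Agent.P039.H412
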