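import Vale.Agent.P039.H412.Rank
import Vale.Agent.P039.H412.Homology

/-!
# P039: the two sides of a simple closed curve in a spherical map, without geometry
-/

namespace Vale.Agent.P039.H412

open Finset

variable {V E F : Type*} [Fintype V] [Fintype E] [Fintype F] [DecidableEq V] [DecidableEq E]
  [DecidableEq F]

omit [DecidableEq E] in
/-- **Two sides.** `y` is a circulation with values in `{-1, 0, 1}`, such that every circulation
supported on the support of `y` is a multiple of `y` (simple closed curve).  Then there are a set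
`I` of faces, not containing a given face `w₀`, and a sign `σ` with
`y e = σ * ([l e ∈ I] - [r e ∈ I])` for all `e`. -/
theorem exists_side (s t : E → V) (l r : E → F)
    (hbd : ∀ (f : F) (v : V), ∑ e : E, ((if t e = v then 1 else 0) - (if s e = v then 1 else 0)) *
      ((if l e = f then 1 else 0) - (if r e = f then 1 else 0)) = (0 : ℚ))
    (hconn : ∀ φ : V → ℚ, (∀ e, φ (t e) = φ (s e)) → ∀ a b, φ a = φ b)
    (hdual : ∀ ψ : F → ℚ, (∀ e, ψ (l e) = ψ (r e)) → ∀ a b, ψ a = ψ b)
    (heuler : Fintype.card E + 2 ≤ Fintype.card V + Fintype.card F)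
    (y : E → ℚ) (hy1 : ∀ e, y e = -1 ∨ y e = 0 ∨ y e = 1) (hne : ∃ e, y e ≠ 0)
    (hy : ∀ v, ∑ e : E, y e * ((if t e = v then 1 else 0) - (if s e = v then 1 else 0)) = 0)
    (hsimple : ∀ z : E → ℚ,
      (∀ v, ∑ e : E, z e * ((if t e = v then 1 else 0) - (if s e = v then 1 else 0)) = 0) →
      (∀ e, y e = 0 → z e = 0) → ∃ c : ℚ, ∀ e, z e = c * y e)
    (w₀ : F) :
    ∃ (I : Finset F) (σ : ℚ), (σ = 1 ∨ σ = -1) ∧ w₀ ∉ I ∧ I.Nonempty ∧
      ∀ e, y e = σ * ((if l e ∈ I then 1 else 0) - (if r e ∈ I then 1 else 0)) := by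
  classical
  obtain ⟨x, hx⟩ := exists_potential s t l r hbd hconn hdual heuler y hy
  -- the set where `x` is maximal
  obtain ⟨f1, -, hf1⟩ := Finset.exists_max_image (Finset.univ : Finset F) x ⟨w₀, Finset.mem_univ _⟩
  set J : Finset F := Finset.univ.filter fun f => x f = x f1 with hJ
  let z : E → ℚ := fun e => (if l e ∈ J then 1 else 0) - (if r e ∈ J then 1 else 0)
  have hz : ∀ v, ∑ e : E, z e * ((if t e = v then 1 else 0) - (if s e = v then 1 else 0)) = 0 := by
    intro v
    have h1 : ∀ e, z e * ((if t e = v then 1 else 0) - (if s e = v then 1 else 0)) =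
        ∑ f ∈ J, ((if t e = v then 1 else 0) - (if s e = v then 1 else 0)) *
          ((if l e = f then 1 else 0) - (if r e = f then 1 else 0)) := by
      intro e
      rw [← Finset.mul_sum, Finset.sum_sub_distrib, Finset.sum_ite_eq, Finset.sum_ite_eq, mul_comm]
    simp_rw [h1]
    rw [Finset.sum_comm]
    exact Finset.sum_eq_zero fun f _ => hbd f v
  have hz0 : ∀ e, y e = 0 → z e = 0 := by
    intro e he
    have : x (l e) = x (r e) := by
      have := hx e
      rw [he] at this
      linarith
    simp [z, hJ, this]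
  obtain ⟨c, hc⟩ := hsimple z hz hz0
  obtain ⟨e0, he0⟩ := hne
  -- `J` is not everything
  have hJne : ∃ f, f ∉ J := by
    by_contra h
    push Not at h
    have h1 : ∀ f, x f = x f1 := fun f => by simpa [hJ] using h f
    exact he0 (by rw [hx, h1, h1 (r e0), sub_self])
  -- `z` is not zero
  have hzne : ∃ e, z e ≠ 0 := by
    by_contra h
    push Not at h
    obtain ⟨g, hg⟩ := hJne
    have h2 := hdual (fun f => if f ∈ J then 1 else 0) (fun e => by
      have := h e
      simp only [z] at this
      linarith) f1 g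
    simp [hJ] at h2
    exact hg (by simp [hJ, h2])
  obtain ⟨e1, he1⟩ := hzne
  have hcne : c ≠ 0 := by
    rintro rfl
    exact he1 (by rw [hc]; ring)
  have hc1 : c = 1 := by
    have hy0 : y e1 ≠ 0 := by
      intro h
      exact he1 (by rw [hc, h]; ring)
    -- signs: a positive jump of `x` can only be a positive jump of the indicator
    have hle1 : ∀ e, y e = 1 → z e = 0 ∨ z e = 1 := by
      intro e he
      have h1 : x (r e) < x f1 := by
        have h2 := hf1 (l e) (Finset.mem_univ _)
        have h3 := hx e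
        rw [he] at h3
        linarith
      have h4 : r e ∉ J := by
        simp [hJ, h1.ne]
      by_cases h5 : l e ∈ J
      · right; simp [z, h4, h5]
      · left; simp [z, h4, h5]
    have hle2 : ∀ e, y e = -1 → z e = 0 ∨ z e = -1 := by
      intro e he
      have h1 : x (l e) < x f1 := by
        have h2 := hf1 (r e) (Finset.mem_univ _)
        have h3 := hx e
        rw [he] at h3
        linarith
      have h4 : l e ∉ J := by
        simp [hJ, h1.ne]
      by_cases h5 : r e ∈ J
      · right; simp [z, h4, h5]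
      · left; simp [z, h4, h5]
    rcases hy1 e1 with h | h | h
    · rcases hle2 e1 h with h' | h'
      · exact absurd h' he1
      · have := hc e1
        rw [h', h] at this
        linarith
    · exact absurd h hy0
    · rcases hle1 e1 h with h' | h'
      · exact absurd h' he1
      · have := hc e1
        rw [h', h] at this
        linarith
  have hyz : ∀ e, y e = z e := fun e => by rw [hc e, hc1, one_mul]
  by_cases hw : w₀ ∈ J
  · -- take the complement
    refine ⟨Jᶜ, -1, Or.inr rfl, by simpa using hw, ?_, fun e => ?_⟩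
    · obtain ⟨f, hf⟩ := hJne
      exact ⟨f, by simpa using hf⟩
    · rw [hyz]
      simp only [z, Finset.mem_compl]
      by_cases h1 : l e ∈ J <;> by_cases h2 : r e ∈ J <;> simp [h1, h2]
  · exact ⟨J, 1, Or.inl rfl, hw, ⟨f1, by simp [hJ]⟩, fun e => by rw [hyz, one_mul]⟩

/-- edges with a side in `I` -/
def He (l r : E → F) (I : Finset F) : Finset E := univ.filter fun e => l e ∈ I ∨ r e ∈ I

/-- edges with exactly one side in `I` -/
def Ce (l r : E → F) (I : Finset F) : Finset E :=
  univ.filter fun e => ¬ (l e ∈ I ↔ r e ∈ I)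

/-- vertices of a set of edges -/
def Ve (s t : E → V) (H : Finset E) : Finset V := univ.filter fun v => ∃ e ∈ H, s e = v ∨ t e = v

omit [Fintype V] [Fintype F] [DecidableEq V] [DecidableEq E] in
theorem conn_side (s t : E → V) (l r : E → F)
    (hdual : ∀ ψ : F → ZMod 2, (∀ e, ψ (l e) = ψ (r e)) → ∀ a b, ψ a = ψ b)
    (hface : ∀ f, ∀ φ : V → ZMod 2, (∀ e, (l e = f ∨ r e = f) → φ (s e) = φ (t e)) →
      ∀ e e', (l e = f ∨ r e = f) → (l e' = f ∨ r e' = f) → φ (s e) = φ (s e'))
    (I : Finset F) (hI : ∃ f, f ∉ I) (hI' : I.Nonempty)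
    (hC : ∀ φ : V → ZMod 2, (∀ e ∈ Ce l r I, φ (s e) = φ (t e)) →
      ∀ e ∈ Ce l r I, ∀ e' ∈ Ce l r I, φ (s e) = φ (s e'))
    (φ : V → ZMod 2) (hφ : ∀ e ∈ He l r I, φ (s e) = φ (t e)) :
    ∃ α, ∀ e ∈ He l r I, φ (s e) = α ∧ φ (t e) = α := by
  classical
  have hCH : ∀ e ∈ Ce l r I, e ∈ He l r I := by
    intro e he
    simp only [Ce, He, mem_filter, mem_univ, true_and] at he ⊢
    tauto
  obtain ⟨f0, hf0⟩ := hI
  obtain ⟨f1, hf1⟩ := hI'
  have hCne : ∃ e, e ∈ Ce l r I := by
    by_contra h
    push Not at h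
    have := hdual (fun f => if f ∈ I then 1 else 0) (fun e => by
      have := h e
      simp only [Ce, mem_filter, mem_univ, true_and, not_not] at this
      simp [this]) f1 f0
    simp [hf0, hf1] at this
  obtain ⟨e0, he0⟩ := hCne
  have hα := hC φ (fun e he => hφ e (hCH e he)) e0 he0
  refine ⟨φ (s e0), ?_⟩
  have hf : ∀ f ∈ I, ∀ e, (l e = f ∨ r e = f) → φ (s e) = φ (t e) := by
    intro f hf e he
    apply hφ
    simp only [He, mem_filter, mem_univ, true_and]
    rcases he with rfl | rfl
    · exact Or.inl hf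
    · exact Or.inr hf
  let ψ : F → ZMod 2 := fun f =>
    if f ∈ I ∧ ∃ e, (l e = f ∨ r e = f) ∧ φ (s e) ≠ φ (s e0) then 1 else 0
  have hkey : ∀ f ∈ I, ∀ e, (l e = f ∨ r e = f) →
      (ψ f = 1 ↔ φ (s e) ≠ φ (s e0)) := by
    intro f hfI e he
    simp only [ψ]
    constructor
    · intro h
      have h1 : ∃ e, (l e = f ∨ r e = f) ∧ φ (s e) ≠ φ (s e0) := by
        by_contra h2
        rw [if_neg (fun h3 => h2 h3.2)] at h
        exact absurd h (by decide)
      obtain ⟨e', he', h2⟩ := h1
      rwa [hface f φ (hf f hfI) e e' he he']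
    · intro h
      rw [if_pos ⟨hfI, e, he, h⟩]
  have h01 : ∀ f, ψ f = 1 ∨ ψ f = 0 := by
    intro f
    simp only [ψ]
    split_ifs <;> simp
  have hψ : ∀ e, ψ (l e) = ψ (r e) := by
    intro e
    by_cases h1 : l e ∈ I <;> by_cases h2 : r e ∈ I
    · have k1 := hkey _ h1 e (Or.inl rfl)
      have k2 := hkey _ h2 e (Or.inr rfl)
      have k3 : ψ (l e) = 1 ↔ ψ (r e) = 1 := k1.trans k2.symm
      rcases h01 (l e) with h | h <;> rcases h01 (r e) with h' | h'
      · rw [h, h']
      · rw [k3.1 h] at h'; exact absurd h' (by decide)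
      · rw [k3.2 h'] at h; exact absurd h (by decide)
      · rw [h, h']
    · have hc : e ∈ Ce l r I := by simp [Ce, h1, h2]
      have k1 := hkey _ h1 e (Or.inl rfl)
      have : ψ (l e) = 0 := by
        rcases h01 (l e) with h | h
        · exact absurd (hα e hc).symm (k1.1 h)
        · exact h
      rw [this]
      simp [ψ, h2]
    · have hc : e ∈ Ce l r I := by simp [Ce, h1, h2]
      have k1 := hkey _ h2 e (Or.inr rfl)
      have : ψ (r e) = 0 := by
        rcases h01 (r e) with h | h
        · exact absurd (hα e hc).symm (k1.1 h)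
        · exact h
      rw [this]
      simp [ψ, h1]
    · simp [ψ, h1, h2]
  have hz : ∀ f, ψ f = 0 := fun f => by
    rw [hdual ψ hψ f f0]
    simp [ψ, hf0]
  have hfin : ∀ e ∈ He l r I, φ (s e) = φ (s e0) := by
    intro e he
    by_contra h
    simp only [He, mem_filter, mem_univ, true_and] at he
    rcases he with h1 | h1
    · have := (hkey _ h1 e (Or.inl rfl)).2 h
      rw [hz] at this
      exact absurd this (by decide)
    · have := (hkey _ h1 e (Or.inr rfl)).2 h
      rw [hz] at this
      exact absurd this (by decide)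
  exact fun e he => ⟨hfin e he, by rw [← hφ e he]; exact hfin e he⟩

/-- **Euler's formula for a side of a simple closed curve.** -/
theorem disc (s t : E → V) (l r : E → F)
    (hbd : ∀ (f : F) (v : V), ∑ e : E, ((if l e = f then 1 else 0) + (if r e = f then 1 else 0)) *
      ((if s e = v then 1 else 0) + (if t e = v then 1 else 0)) = (0 : ZMod 2))
    (hdual : ∀ ψ : F → ZMod 2, (∀ e, ψ (l e) = ψ (r e)) → ∀ a b, ψ a = ψ b)
    (hface : ∀ f, ∀ φ : V → ZMod 2, (∀ e, (l e = f ∨ r e = f) → φ (s e) = φ (t e)) →
      ∀ e e', (l e = f ∨ r e = f) → (l e' = f ∨ r e' = f) → φ (s e) = φ (s e'))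
    (hvert : ∀ v, ∀ ψ : F → ZMod 2, (∀ e, (s e = v ∨ t e = v) → ψ (l e) = ψ (r e)) →
      ∀ e e', (s e = v ∨ t e = v) → (s e' = v ∨ t e' = v) → ψ (l e) = ψ (l e'))
    (hinc : ∀ v, ∃ e, s e = v ∨ t e = v)
    (heuler : Fintype.card E + 2 ≤ Fintype.card V + Fintype.card F)
    (I : Finset F) (hI : ∃ f, f ∉ I) (hI' : I.Nonempty)
    (hC : ∀ φ : V → ZMod 2, (∀ e ∈ Ce l r I, φ (s e) = φ (t e)) →
      ∀ e ∈ Ce l r I, ∀ e' ∈ Ce l r I, φ (s e) = φ (s e'))
    (hcard : (Ce l r I).card ≤ (Ve s t (Ce l r I)).card) :
    I.card + (Ve s t (He l r I)).card = (He l r I).card + 1 := by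
  classical
  have hCc : Ce l r Iᶜ = Ce l r I := by
    ext e
    simp only [Ce, mem_filter, mem_univ, true_and, mem_compl]
    tauto
  -- the inequality for a side
  have key : ∀ I' : Finset F, (∃ f, f ∉ I') → I'.Nonempty → Ce l r I' = Ce l r I →
      I'.card + (Ve s t (He l r I')).card ≤ (He l r I').card + 1 := by
    intro I' h1 h2 h3
    refine card_le s t l r hbd hdual I' h1 (He l r I') (fun e he => by simpa [He] using he)
      (Ve s t (He l r I')) (fun e he => ?_) (fun e he => ?_) ?_
    · simp only [Ve, mem_filter, mem_univ, true_and]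
      exact ⟨e, he, Or.inl rfl⟩
    · simp only [Ve, mem_filter, mem_univ, true_and]
      exact ⟨e, he, Or.inr rfl⟩
    · intro φ hφ u hu v hv
      obtain ⟨α, hα⟩ := conn_side s t l r hdual hface I' h1 h2 (by rw [h3]; exact hC) φ hφ
      simp only [Ve, mem_filter, mem_univ, true_and] at hu hv
      obtain ⟨e, he, h⟩ := hu
      obtain ⟨e', he', h'⟩ := hv
      have k1 : φ u = α := by
        rcases h with rfl | rfl
        · exact (hα e he).1
        · exact (hα e he).2
      have k2 : φ v = α := by
        rcases h' with rfl | rfl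
        · exact (hα e' he').1
        · exact (hα e' he').2
      rw [k1, k2]
  have a1 := key I hI hI' rfl
  have a2 := key Iᶜ (by obtain ⟨f, hf⟩ := hI'; exact ⟨f, by simpa using hf⟩)
    (by obtain ⟨f, hf⟩ := hI; exact ⟨f, by simpa using hf⟩) hCc
  -- counting
  have c1 : (He l r I).card + (He l r Iᶜ).card = Fintype.card E + (Ce l r I).card := by
    rw [← Finset.card_union_add_card_inter]
    congr 1
    · rw [← Finset.card_univ]
      congr 1
      ext e
      simp only [He, mem_union, mem_filter, mem_univ, true_and, mem_compl, iff_true]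
      tauto
    · congr 1
      ext e
      simp only [He, Ce, mem_inter, mem_filter, mem_univ, true_and, mem_compl]
      tauto
  have c2 : (Ve s t (He l r I)).card + (Ve s t (He l r Iᶜ)).card =
      Fintype.card V + (Ve s t (Ce l r I)).card := by
    rw [← Finset.card_union_add_card_inter]
    congr 1
    · rw [← Finset.card_univ]
      congr 1
      ext v
      simp only [Ve, He, mem_union, mem_filter, mem_univ, true_and, mem_compl, iff_true]
      obtain ⟨e, he⟩ := hinc v
      by_cases h : l e ∈ I
      · exact Or.inl ⟨e, Or.inl h, he⟩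
      · exact Or.inr ⟨e, Or.inl h, he⟩
    · congr 1
      ext v
      simp only [mem_inter]
      constructor
      · rintro ⟨h1, h2⟩
        by_contra hv
        have hv' : ∀ e, (s e = v ∨ t e = v) → (l e ∈ I ↔ r e ∈ I) := by
          intro e he
          by_contra h
          apply hv
          simp only [Ve, mem_filter, mem_univ, true_and]
          exact ⟨e, by simp only [Ce, mem_filter, mem_univ, true_and]; exact h, he⟩
        have hh := hvert v (fun f => if f ∈ I then 1 else 0) (fun e he => by
          simp [hv' e he])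
        simp only [Ve, He, mem_filter, mem_univ, true_and, mem_compl] at h1 h2
        obtain ⟨e, he, hev⟩ := h1
        obtain ⟨e', he', hev'⟩ := h2
        have k1 : l e ∈ I := by
          have := hv' e hev
          tauto
        have k2 : l e' ∉ I := by
          have := hv' e' hev'
          tauto
        have := hh e e' hev hev'
        simp [k1, k2] at this
      · intro h
        simp only [Ve, He, mem_filter, mem_univ, true_and, mem_compl, Ce] at h ⊢
        obtain ⟨e, he, hev⟩ := h
        exact ⟨⟨e, by tauto, hev⟩, ⟨e, by tauto, hev⟩⟩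
  have c3 : I.card + Iᶜ.card = Fintype.card F := Finset.card_add_card_compl I
  omega

end Vale.Agent.P039.H412
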