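import Mathlib.LinearAlgebra.Matrix.Rank
import Mathlib.Data.ZMod.Basic
import Mathlib.Tactic

/-!
# P039: the Euler inequality for a set of faces (rank count over `ZMod 2`)

`E` = edges with ends `s e`, `t e : V` and sides `l e`, `r e : F`.  If the boundary of each face is
a cycle mod 2, the dual is connected, `I` is a set of faces which is not everything, all edges with
a side in `I` are in `H`, and `(VH, H)` is connected, then `|I| + |VH| ≤ |H| + 1`.
-/

namespace Vale.Agent.P039.H412

open Finset Matrix

variable {V E F : Type*} [Fintype V] [Fintype E] [Fintype F] [DecidableEq V] [DecidableEq E]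
  [DecidableEq F]

/-- vertex-edge incidence mod 2 -/
def ve (s t : E → V) (VH : Finset V) (H : Finset E) : Matrix VH H (ZMod 2) :=
  fun v e => (if s e = v then 1 else 0) + (if t e = v then 1 else 0)

/-- edge-face incidence mod 2 -/
def ef (l r : E → F) (H : Finset E) (I : Finset F) : Matrix H I (ZMod 2) :=
  fun e f => (if l e = f then 1 else 0) + (if r e = f then 1 else 0)

omit [Fintype V] [Fintype E] [Fintype F] in
theorem ve_rank (s t : E → V) (VH : Finset V) (H : Finset E)
    (hs : ∀ e ∈ H, s e ∈ VH) (ht : ∀ e ∈ H, t e ∈ VH)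
    (hconn : ∀ φ : V → ZMod 2, (∀ e ∈ H, φ (s e) = φ (t e)) → ∀ u ∈ VH, ∀ v ∈ VH, φ u = φ v) :
    VH.card ≤ (ve s t VH H).rank + 1 := by
  classical
  rw [← Matrix.rank_transpose, Matrix.rank]
  set T := (ve s t VH H)ᵀ.mulVecLin with hT
  have h1 := LinearMap.finrank_range_add_finrank_ker T
  rw [Module.finrank_fintype_fun_eq_card, Fintype.card_coe] at h1
  have h2 : Module.finrank (ZMod 2) (LinearMap.ker T) ≤ 1 := by
    -- the kernel lies in the constants
    have hle : LinearMap.ker T ≤ Submodule.span (ZMod 2) {fun _ : VH => (1 : ZMod 2)} := by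
      intro x hx
      rw [LinearMap.mem_ker] at hx
      let φ : V → ZMod 2 := fun v => if h : v ∈ VH then x ⟨v, h⟩ else 0
      have hφ : ∀ e ∈ H, φ (s e) = φ (t e) := by
        intro e he
        have := congrFun hx ⟨e, he⟩
        simp only [hT, Matrix.mulVecLin_apply, Matrix.mulVec, dotProduct, Matrix.transpose_apply,
          ve, Pi.zero_apply, add_mul, Finset.sum_add_distrib, ite_mul, one_mul, zero_mul] at this
        have e1 : ∀ w ∈ VH, (∑ v : VH, if w = (v : V) then x v else 0) = φ w := by
          intro w hw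
          rw [Finset.sum_eq_single (⟨w, hw⟩ : VH)]
          · simp [φ, hw]
          · intro b _ hb
            rw [if_neg]
            intro h
            exact hb (Subtype.ext h.symm)
          · simp
        rw [e1 _ (hs e he), e1 _ (ht e he)] at this
        have h2 : φ (s e) = - φ (t e) := eq_neg_of_add_eq_zero_left this
        rw [h2, ZMod.neg_eq_self_mod_two]
      have hc := hconn φ hφ
      rcases VH.eq_empty_or_nonempty with h0 | ⟨v0, hv0⟩
      · have : x = 0 := by
          funext v
          have := v.2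
          simp [h0] at this
        rw [this]; exact Submodule.zero_mem _
      · rw [Submodule.mem_span_singleton]
        refine ⟨φ v0, ?_⟩
        funext v
        have := hc v0 hv0 v v.2
        simp only [Pi.smul_apply, smul_eq_mul, mul_one]
        rw [this]
        simp [φ]
    calc Module.finrank (ZMod 2) (LinearMap.ker T)
        ≤ Module.finrank (ZMod 2) (Submodule.span (ZMod 2) {fun _ : VH => (1 : ZMod 2)}) :=
          Submodule.finrank_mono hle
      _ ≤ 1 := (finrank_span_le_card _).trans (by simp)
  omega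

omit [Fintype V] [Fintype E] [Fintype F] in
theorem ef_rank (l r : E → F) (H : Finset E) (I : Finset F)
    (hH : ∀ e, l e ∈ I ∨ r e ∈ I → e ∈ H) (hI : ∃ f, f ∉ I)
    (hdual : ∀ ψ : F → ZMod 2, (∀ e, ψ (l e) = ψ (r e)) → ∀ a b, ψ a = ψ b) :
    (ef l r H I).rank = I.card := by
  classical
  rw [Matrix.rank, LinearMap.finrank_range_of_inj, Module.finrank_fintype_fun_eq_card,
    Fintype.card_coe]
  rw [← LinearMap.ker_eq_bot, LinearMap.ker_eq_bot']
  intro x hx
  let ψ : F → ZMod 2 := fun f => if h : f ∈ I then x ⟨f, h⟩ else 0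
  have e1 : ∀ w : F, (∑ f : I, if w = (f : F) then x f else 0) = ψ w := by
    intro w
    by_cases hw : w ∈ I
    · rw [Finset.sum_eq_single (⟨w, hw⟩ : I)]
      · simp [ψ, hw]
      · intro b _ hb
        rw [if_neg]
        intro h
        exact hb (Subtype.ext h.symm)
      · simp
    · rw [Finset.sum_eq_zero]
      · simp [ψ, hw]
      · intro b _
        rw [if_neg]
        rintro rfl
        exact hw b.2
  have hψ : ∀ e, ψ (l e) = ψ (r e) := by
    intro e
    by_cases he : e ∈ H
    · have := congrFun hx ⟨e, he⟩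
      simp only [Matrix.mulVecLin_apply, Matrix.mulVec, dotProduct, ef, Pi.zero_apply, add_mul,
        Finset.sum_add_distrib, ite_mul, one_mul, zero_mul] at this
      rw [e1, e1] at this
      rw [eq_neg_of_add_eq_zero_left this, ZMod.neg_eq_self_mod_two]
    · have h1 : l e ∉ I := fun h => he (hH e (Or.inl h))
      have h2 : r e ∉ I := fun h => he (hH e (Or.inr h))
      simp [ψ, h1, h2]
  obtain ⟨f0, hf0⟩ := hI
  funext f
  have := hdual ψ hψ f f0
  simpa [ψ, hf0] using this

omit [Fintype V] [Fintype F] in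
/-- **Euler inequality for a set of faces.** -/
theorem card_le (s t : E → V) (l r : E → F)
    (hbd : ∀ (f : F) (v : V), ∑ e : E, ((if l e = f then 1 else 0) + (if r e = f then 1 else 0)) *
      ((if s e = v then 1 else 0) + (if t e = v then 1 else 0)) = (0 : ZMod 2))
    (hdual : ∀ ψ : F → ZMod 2, (∀ e, ψ (l e) = ψ (r e)) → ∀ a b, ψ a = ψ b)
    (I : Finset F) (hI : ∃ f, f ∉ I) (H : Finset E) (hH : ∀ e, l e ∈ I ∨ r e ∈ I → e ∈ H)
    (VH : Finset V) (hs : ∀ e ∈ H, s e ∈ VH) (ht : ∀ e ∈ H, t e ∈ VH)
    (hconn : ∀ φ : V → ZMod 2, (∀ e ∈ H, φ (s e) = φ (t e)) → ∀ u ∈ VH, ∀ v ∈ VH, φ u = φ v) :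
    I.card + VH.card ≤ H.card + 1 := by
  classical
  have h0 : ve s t VH H * ef l r H I = 0 := by
    funext v f
    simp only [Matrix.mul_apply, Matrix.zero_apply]
    have h1 := hbd f v
    rw [← Finset.sum_subset (Finset.subset_univ H)] at h1
    · rw [← Finset.sum_coe_sort H] at h1
      rw [← h1]
      refine Finset.sum_congr rfl fun e _ => ?_
      simp only [ve, ef]
      ring
    · intro e _ he
      have h1 : l e ≠ f := fun h => he (hH e (Or.inl (h ▸ f.2)))
      have h2 : r e ≠ f := fun h => he (hH e (Or.inr (h ▸ f.2)))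
      simp [h1, h2]
  have h1 := Matrix.rank_add_rank_le_card_of_mul_eq_zero h0
  rw [Fintype.card_coe, ef_rank l r H I hH hI hdual] at h1
  have h2 := ve_rank s t VH H hs ht hconn
  omega

end Vale.Agent.P039.H412
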